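import Vale.Agent.P336.Defs

/-!
# P336 module AVG: the martingale identity

Let `c = #(S ∩ V) ≥ 1` (it contains `i`).  The term `j = i` is `[c = 1]`.  For `j ∈ V`, `j ≠ i`:
if `j ∈ S` then `#(S ∩ V.erase j) = c - 1` (there are `c - 1` such `j`), otherwise it is `c`
(there are `#V - c` such `j`).  If `c = 1` the sum is `1 + (#V - 1)`, otherwise
`(c-1)/(c-1) + (#V - c)/c`; in both cases it equals `#V / c`.
-/

namespace P336

open Finset

variable {n : ℕ}

theorem ppz_avg (V S : Finset (Fin n)) (i : Fin n) (hiV : i ∈ V) (hiS : i ∈ S) :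
    ∑ j ∈ V, (if j = i then (if S ∩ V = {i} then (1 : ℝ) else 0) else 1 / (#(S ∩ V.erase j) : ℝ))
      = #V / (#(S ∩ V) : ℝ) := by
  have hi : i ∈ S ∩ V := Finset.mem_inter.2 ⟨hiS, hiV⟩
  have hc : 1 ≤ #(S ∩ V) := Finset.card_pos.2 ⟨i, hi⟩
  -- values of the terms
  have h1 : ∀ j ∈ V, j ≠ i → j ∈ S → (#(S ∩ V.erase j) : ℝ) = (#(S ∩ V) : ℝ) - 1 := by
    intro j hj hji hjS
    have h2 : S ∩ V.erase j = (S ∩ V).erase j := by
      rw [Finset.inter_erase]
    rw [h2, Finset.card_erase_of_mem (Finset.mem_inter.2 ⟨hjS, hj⟩)]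
    push_cast [hc]
    ring
  have h2 : ∀ j ∈ V, j ∉ S → #(S ∩ V.erase j) = #(S ∩ V) := by
    intro j hj hjS
    rw [Finset.inter_erase, Finset.erase_eq_of_notMem]
    intro h
    exact hjS (Finset.mem_inter.1 h).1
  have hsplit : ∑ j ∈ V, (if j = i then (if S ∩ V = {i} then (1 : ℝ) else 0)
      else 1 / (#(S ∩ V.erase j) : ℝ)) =
      (if S ∩ V = {i} then (1 : ℝ) else 0) +
      (∑ j ∈ (S ∩ V).erase i, 1 / ((#(S ∩ V) : ℝ) - 1) + ∑ j ∈ V \ S, 1 / (#(S ∩ V) : ℝ)) := by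
    rw [← Finset.add_sum_erase V _ hiV, if_pos rfl]
    congr 1
    have h3 : V.erase i = (S ∩ V).erase i ∪ V \ S := by
      ext j
      simp only [Finset.mem_erase, Finset.mem_union, Finset.mem_inter, Finset.mem_sdiff]
      constructor
      · rintro ⟨h4, h5⟩
        by_cases h6 : j ∈ S
        · exact Or.inl ⟨h4, h6, h5⟩
        · exact Or.inr ⟨h5, h6⟩
      · rintro (⟨h4, h5, h6⟩ | ⟨h4, h5⟩)
        · exact ⟨h4, h6⟩
        · exact ⟨fun h => h5 (h ▸ hiS), h4⟩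
    have h4 : Disjoint ((S ∩ V).erase i) (V \ S) := by
      rw [Finset.disjoint_left]
      intro j hj hj2
      exact (Finset.mem_sdiff.1 hj2).2 (Finset.mem_inter.1 (Finset.mem_of_mem_erase hj)).1
    rw [h3, Finset.sum_union h4]
    congr 1
    · refine Finset.sum_congr rfl fun j hj => ?_
      have hj' := Finset.mem_erase.1 hj
      have hj'' := Finset.mem_inter.1 hj'.2
      rw [if_neg hj'.1, h1 j hj''.2 hj'.1 hj''.1]
    · refine Finset.sum_congr rfl fun j hj => ?_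
      have hj' := Finset.mem_sdiff.1 hj
      rw [if_neg (fun h : j = i => hj'.2 (h ▸ hiS)), h2 j hj'.1 hj'.2]
  rw [hsplit, Finset.sum_const, Finset.sum_const, Finset.card_erase_of_mem hi]
  have hV : (#(V \ S) : ℝ) = (#V : ℝ) - (#(S ∩ V) : ℝ) := by
    have h3 := Finset.card_inter_add_card_sdiff V S
    rw [Finset.inter_comm] at h3
    have h4 : (#(S ∩ V) : ℝ) + (#(V \ S) : ℝ) = (#V : ℝ) := by exact_mod_cast h3
    linarith
  have hc0 : (0 : ℝ) < (#(S ∩ V) : ℝ) := by exact_mod_cast hc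
  simp only [nsmul_eq_mul]
  rw [hV]
  by_cases hone : #(S ∩ V) = 1
  · have h3 : S ∩ V = {i} := by
      obtain ⟨a, ha⟩ := Finset.card_eq_one.1 hone
      rw [ha] at hi ⊢
      rw [Finset.mem_singleton.1 hi]
    rw [if_pos h3, hone]
    simp
  · have h3 : S ∩ V ≠ {i} := fun h => hone (by rw [h]; simp)
    rw [if_neg h3]
    have h4 : 2 ≤ #(S ∩ V) := by omega
    have h5 : (1 : ℝ) < (#(S ∩ V) : ℝ) := by exact_mod_cast h4
    have h6 : ((#(S ∩ V) - 1 : ℕ) : ℝ) = (#(S ∩ V) : ℝ) - 1 := by push_cast [hc]; ring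
    rw [h6]
    have h7 : (#(S ∩ V) : ℝ) - 1 ≠ 0 := by linarith
    field_simp
    ring

end P336
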