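import Vale.Agent.P336.Defs

/-! # P336 modules BR1, BR2: branching on a short clause -/

namespace P336

open Finset

variable {n : ℕ}

theorem BR_lw_mono {V : Finset (Fin n)} {L C : Clause n} (h : L ⊆ C) : lw V L ≤ lw V C :=
  card_le_card (filter_subset_filter _ h)

theorem BR_lw_le (V : Finset (Fin n)) (L : Clause n) : lw V L ≤ #L :=
  card_le_card (filter_subset _ _)

theorem BR_lw_anti {V W : Finset (Fin n)} (h : V ⊆ W) (C : Clause n) : lw V C ≤ lw W C := by
  refine card_le_card fun l hl => ?_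
  rw [mem_filter] at hl ⊢
  exact ⟨hl.1, h hl.2⟩

open scoped Classical in
theorem branch1' (V : Finset (Fin n)) (F : CNF n) (A : Finset (Fin n → Bool)) (h : Iso V F A)
    (k m : ℕ) (C L : Clause n) (hC : C ∈ F) (hCk : k < lw V C) (hL : L ⊆ C) (hLk : #L ≤ k)
    (hm : #{C ∈ F | k < lw V C} ≤ m + 1) :
    Iso V (insert L (F.erase C)) {x ∈ A | Clause.val L x} ∧
      #{C ∈ insert L (F.erase C) | k < lw V C} ≤ m := by
  refine ⟨⟨?_, ?_, ?_⟩, ?_⟩
  · intro x hx y hy
    exact h.agree x (mem_filter.1 hx).1 y (mem_filter.1 hy).1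
  · intro x hx C' hC'
    rw [mem_filter] at hx
    rcases mem_insert.1 hC' with h1 | h1
    · rw [h1]
      exact hx.2
    · exact h.sat x hx.1 C' (mem_of_mem_erase h1)
  · intro x hx i hi hsat
    rw [mem_filter] at hx
    refine h.isolated x hx.1 i hi fun C' hC' => ?_
    by_cases hCC : C' = C
    · subst hCC
      obtain ⟨l, hl, hl2⟩ := hsat L (mem_insert_self _ _)
      exact ⟨l, hL hl, hl2⟩
    · exact hsat C' (mem_insert_of_mem (mem_erase.2 ⟨hCC, hC'⟩))
  · have hsub : ({C' ∈ insert L (F.erase C) | k < lw V C'} : Finset (Clause n)) ⊆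
        ({C' ∈ F | k < lw V C'} : Finset (Clause n)).erase C := by
      intro C' hC'
      rw [mem_filter] at hC'
      rcases mem_insert.1 hC'.1 with h1 | h1
      · exfalso
        have h2 := hC'.2
        rw [h1] at h2
        exact absurd (h2.trans_le (BR_lw_le V L)) (by omega)
      · rw [mem_erase] at h1
        exact mem_erase.2 ⟨h1.1, mem_filter.2 ⟨h1.2, hC'.2⟩⟩
    have h1 := card_le_card hsub
    rw [card_erase_of_mem (mem_filter.2 ⟨hC, hCk⟩)] at h1
    omega

open scoped Classical in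
theorem branch2' (V : Finset (Fin n)) (F : CNF n) (A : Finset (Fin n → Bool)) (h : Iso V F A)
    (k m : ℕ) (L : Clause n) (hLV : ∀ l ∈ L, l.1 ∈ V) (hLk : #L = k)
    (hm : #{C ∈ F | k < lw V C} ≤ m) (hne : ({x ∈ A | ¬ Clause.val L x} : Finset _).Nonempty) :
    Iso (V \ L.image Prod.fst) F {x ∈ A | ¬ Clause.val L x} ∧
      #(V \ L.image Prod.fst) + k = #V ∧
      #{C ∈ F | k < lw (V \ L.image Prod.fst) C} ≤ m := by
  have hval : ∀ x ∈ ({x ∈ A | ¬ Clause.val L x} : Finset (Fin n → Bool)), ∀ l ∈ L,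
      x l.1 = !l.2 := by
    intro x hx l hl
    have h1 : ¬ Clause.val L x := (mem_filter.1 hx).2
    have h2 : x l.1 ≠ l.2 := fun h3 => h1 ⟨l, hl, h3⟩
    cases hx1 : x l.1 <;> cases hl2 : l.2 <;> simp_all
  refine ⟨⟨?_, ?_, ?_⟩, ?_, ?_⟩
  · intro x hx y hy i hi
    by_cases hiV : i ∈ V
    · have hiL : i ∈ L.image Prod.fst := by
        by_contra hcon
        exact hi (mem_sdiff.2 ⟨hiV, hcon⟩)
      obtain ⟨l, hl, hli⟩ := mem_image.1 hiL
      rw [← hli, hval x hx l hl, hval y hy l hl]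
    · exact h.agree x (mem_filter.1 hx).1 y (mem_filter.1 hy).1 i hiV
  · intro x hx
    exact h.sat x (mem_filter.1 hx).1
  · intro x hx i hi
    exact h.isolated x (mem_filter.1 hx).1 i (mem_sdiff.1 hi).1
  · have hinj : Set.InjOn (Prod.fst : Lit n → Fin n) (L : Set (Lit n)) := by
      obtain ⟨x, hx⟩ := hne
      intro l hl l' hl' hll
      have h1 := hval x hx l hl
      have h2 := hval x hx l' hl'
      have h3 : (!l.2) = (!l'.2) := by
        rw [← h1, ← h2, hll]
      exact Prod.ext hll (Bool.not_inj h3)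
    have hcard : #(L.image Prod.fst) = k := by
      rw [card_image_of_injOn hinj, hLk]
    have hsub : L.image Prod.fst ⊆ V := by
      intro i hi
      obtain ⟨l, hl, rfl⟩ := mem_image.1 hi
      exact hLV l hl
    have h4 := card_sdiff_add_card_eq_card hsub
    rw [hcard] at h4
    exact h4
  · refine le_trans (card_le_card fun C hC => ?_) hm
    rw [mem_filter] at hC ⊢
    exact ⟨hC.1, hC.2.trans_le (BR_lw_anti sdiff_subset C)⟩

end P336
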