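import Vale.Agent.P336.Wide

/-!
# P336 modules CIR, PAR, UNB, ASY: circuits

CIR (`circuit_count`): `#{f = true} ≤ ∑ F ∈ D, #{x | F.val x}`, each term by `count`
(flipping a coordinate of an accepted input gives a rejected input of `f`, so `F` rejects it).
PAR (`parity_bound`): `par x` = the number of ones is odd.  Flipping changes the parity; exactly
`2^(n-1)` inputs are odd for `n ≥ 1` (bijection `x ↦ flip x 0`).  From CIR
`2^(n-1) ≤ #D * 2 * 2^(n - n/k)`, i.e. `2^(n/k) ≤ 4 #D`, so `2^n ≤ (4 #D)^k`.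
UNB (`tradeoff`): from `parity_bound` with `k = b + 2`.
ASY (`asymp`): put `u = n^(1/2-δ)`.  Let `#D ≤ 2^a`, all `#F ≤ 2^b` with `a`, `b` minimal (Nat.clog).
`(a+2)(b+2) ≥ n`.  If `#D ≤ 2^u` then `a ≤ u + 1`, so `b + 2 ≥ n/(u+3)`, and some `#F > 2^(b-1)`;
so `size ≥ 2^(b-1)`, and `n/(u+3) - 3 ≥ n^(1/2+δ/2)` for large `n`.  Symmetric if all `#F ≤ 2^u`.
-/

namespace P336

open Finset

variable {n : ℕ}

/-- parity: the number of ones is odd -/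
def par (x : Fin n → Bool) : Prop := Odd #{i | x i = true}

open scoped Classical in
theorem circuit_count (k : ℕ) (hk : 2 ≤ k) (f : (Fin n → Bool) → Prop)
    (hf : ∀ x, f x → ∀ i, ¬ f (flip x i)) (D : Circuit n) (hD : ∀ x, Circuit.val D x ↔ f x)
    (hw : ∀ F ∈ D, #{C ∈ F | k < #C} ≤ 2 ^ (k - 2)) :
    (#{x | f x} : ℝ) ≤ #D * (2 * (2 : ℝ) ^ ((n : ℝ) * (1 - 1 / (k : ℝ)))) := by
  have h1 : ({x | f x} : Finset (Fin n → Bool)) ⊆
      D.biUnion fun F => {x | CNF.val F x} := by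
    intro x hx
    obtain ⟨F, hF, hx2⟩ := (hD x).2 (mem_filter.1 hx).2
    exact mem_biUnion.2 ⟨F, hF, mem_filter.2 ⟨mem_univ _, hx2⟩⟩
  have h2 : #({x | f x} : Finset (Fin n → Bool)) ≤
      ∑ F ∈ D, #({x | CNF.val F x} : Finset (Fin n → Bool)) :=
    (card_le_card h1).trans card_biUnion_le
  have h3 : (#({x | f x} : Finset (Fin n → Bool)) : ℝ) ≤
      ∑ F ∈ D, (#({x | CNF.val F x} : Finset (Fin n → Bool)) : ℝ) := by
    exact_mod_cast h2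
  refine h3.trans ?_
  rw [← nsmul_eq_mul]
  refine sum_le_card_nsmul _ _ _ fun F hF => ?_
  refine count k hk F _ (fun x hx => (mem_filter.1 hx).2) (fun x hx i hc => ?_) (hw F hF)
  have hfx : f x := (hD x).1 ⟨F, hF, (mem_filter.1 hx).2⟩
  exact hf x hfx i ((hD _).1 ⟨F, hF, hc⟩)

theorem flip_flip (x : Fin n → Bool) (i : Fin n) : flip (flip x i) i = x := by
  funext j
  unfold flip
  by_cases h : j = i
  · subst h
    simp
  · simp [h]

theorem PARF_one (x : Fin n → Bool) (i : Fin n) (hx : x i = false) :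
    #{j | flip x i j = true} = #{j | x j = true} + 1 := by
  have h1 : (Finset.univ.filter fun j => flip x i j = true) =
      insert i (Finset.univ.filter fun j => x j = true) := by
    ext j
    simp only [Finset.mem_filter, Finset.mem_univ, true_and, Finset.mem_insert]
    unfold flip
    by_cases h : j = i
    · subst h
      simp [hx]
    · simp [h]
  rw [h1, Finset.card_insert_of_notMem]
  simp [hx]

theorem par_flip (x : Fin n → Bool) (i : Fin n) : par (flip x i) ↔ ¬ par x := by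
  unfold par
  cases hx : x i with
  | false =>
    rw [PARF_one x i hx]
    rw [Nat.odd_add_one]
  | true =>
    have h1 : (flip x i) i = false := by
      unfold flip
      simp [hx]
    have h2 := PARF_one (flip x i) i h1
    rw [flip_flip] at h2
    rw [h2, Nat.odd_add_one, not_not]

open scoped Classical in
theorem par_card (hn : 1 ≤ n) : #{x : Fin n → Bool | par x} = 2 ^ (n - 1) := by
  have i0 : Fin n := ⟨0, hn⟩
  have h1 : #{x : Fin n → Bool | par x} = #{x : Fin n → Bool | ¬ par x} := by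
    refine Finset.card_bij (fun x _ => flip x i0) ?_ ?_ ?_
    · intro x hx
      simp only [Finset.mem_filter, Finset.mem_univ, true_and] at hx ⊢
      rw [par_flip]
      exact not_not.2 hx
    · intro x _ y _ hxy
      rw [← flip_flip x i0, hxy, flip_flip]
    · intro y hy
      refine ⟨flip y i0, ?_, flip_flip y i0⟩
      simp only [Finset.mem_filter, Finset.mem_univ, true_and] at hy ⊢
      rw [par_flip]
      exact hy
  have h2 := Finset.card_filter_add_card_filter_not (s := (univ : Finset (Fin n → Bool)))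
    (fun x => par x)
  have h3 : #(univ : Finset (Fin n → Bool)) = 2 ^ n := by
    rw [Finset.card_univ, Fintype.card_fun, Fintype.card_bool, Fintype.card_fin]
  have h4 : 2 ^ n = 2 * 2 ^ (n - 1) := by
    conv_lhs => rw [← Nat.sub_add_cancel hn, pow_succ]
    ring
  omega

theorem parity_bound (hn : 1 ≤ n) (k : ℕ) (hk : 2 ≤ k) (D : Circuit n)
    (hD : ∀ x, Circuit.val D x ↔ par x) (hw : ∀ F ∈ D, #{C ∈ F | k < #C} ≤ 2 ^ (k - 2)) :
    2 ^ n ≤ (4 * #D) ^ k := by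
  classical
  have h1 := circuit_count k hk par (fun x hx i h => (par_flip x i).1 h hx) D hD hw
  rw [par_card hn] at h1
  have hk0 : (0 : ℝ) < k := by
    have : 0 < k := by omega
    exact_mod_cast this
  have h2 : (2 : ℝ) ^ ((n : ℝ) * (1 - 1 / (k : ℝ))) = 2 ^ n / (2 : ℝ) ^ ((n : ℝ) / k) := by
    rw [← Real.rpow_natCast 2 n, ← Real.rpow_sub (by norm_num)]
    congr 1
    field_simp
  have hpos : (0 : ℝ) < (2 : ℝ) ^ ((n : ℝ) / k) := Real.rpow_pos_of_pos (by norm_num) _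
  have h3 : ((2 ^ (n - 1) : ℕ) : ℝ) = 2 ^ n / 2 := by
    have h4 : (2 : ℝ) ^ n = 2 * 2 ^ (n - 1) := by
      conv_lhs => rw [← Nat.sub_add_cancel hn, pow_succ]
      ring
    push_cast
    rw [h4]
    ring
  rw [h3, h2] at h1
  have h5 : (2 : ℝ) ^ ((n : ℝ) / k) ≤ 4 * #D := by
    have h6 : (0 : ℝ) < 2 ^ n := by positivity
    have h7 : (#D : ℝ) * (2 * (2 ^ n / (2 : ℝ) ^ ((n : ℝ) / k))) =
        2 ^ n * (2 * #D / (2 : ℝ) ^ ((n : ℝ) / k)) := by ring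
    rw [h7] at h1
    have h8 : (1 : ℝ) / 2 ≤ 2 * #D / (2 : ℝ) ^ ((n : ℝ) / k) := by
      have h9 : (2 : ℝ) ^ n * (1 / 2) ≤ 2 ^ n * (2 * #D / (2 : ℝ) ^ ((n : ℝ) / k)) := by
        calc (2 : ℝ) ^ n * (1 / 2) = 2 ^ n / 2 := by ring
          _ ≤ _ := h1
      exact le_of_mul_le_mul_left h9 h6
    rw [le_div_iff₀ hpos] at h8
    linarith
  have h6 : ((2 : ℝ) ^ ((n : ℝ) / k)) ^ k ≤ (4 * #D) ^ k :=
    pow_le_pow_left₀ hpos.le h5 k
  have h7 : ((2 : ℝ) ^ ((n : ℝ) / k)) ^ k = 2 ^ n := by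
    rw [← Real.rpow_natCast, ← Real.rpow_mul (by norm_num)]
    have : (n : ℝ) / k * (k : ℝ) = n := by field_simp
    rw [this, Real.rpow_natCast]
  rw [h7] at h6
  exact_mod_cast h6

theorem tradeoff (hn : 1 ≤ n) (a b : ℕ) (D : Circuit n)
    (hD : ∀ x, Circuit.val D x ↔ par x) (ha : #D ≤ 2 ^ a) (hb : ∀ F ∈ D, #F ≤ 2 ^ b) :
    n ≤ (a + 2) * (b + 2) := by
  have h1 := parity_bound hn (b + 2) (by omega) D hD (fun F hF => by
    refine le_trans (Finset.card_filter_le _ _) ?_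
    simpa using hb F hF)
  have h2 : (4 * #D) ^ (b + 2) ≤ 2 ^ ((a + 2) * (b + 2)) := by
    rw [pow_mul]
    refine Nat.pow_le_pow_left ?_ _
    calc 4 * #D ≤ 4 * 2 ^ a := Nat.mul_le_mul_left 4 ha
      _ = 2 ^ (a + 2) := by ring
  exact (Nat.pow_le_pow_iff_right (by norm_num)).1 (le_trans h1 h2)

/-- elementary real estimate -/
theorem ASY_real (δ : ℝ) (hδ : 0 < δ) (hδ2 : δ < 1 / 2) :
    ∃ n0 : ℕ, 1 ≤ n0 ∧ ∀ n : ℕ, n0 ≤ n →
      ((n : ℝ) ^ (1 / 2 - δ) + 3) * ((n : ℝ) ^ (1 / 2 + δ / 2) + 3) < n := by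
  have h1 : Filter.Tendsto (fun n : ℕ => (n : ℝ) ^ (δ / 2)) Filter.atTop Filter.atTop :=
    (tendsto_rpow_atTop (by positivity)).comp tendsto_natCast_atTop_atTop
  obtain ⟨n0, hn0⟩ := Filter.eventually_atTop.1 (h1.eventually_gt_atTop 16)
  refine ⟨n0 + 1, by omega, fun n hn => ?_⟩
  have h2 := hn0 n (by omega)
  have hn1 : (1 : ℝ) ≤ n := by exact_mod_cast (by omega : 1 ≤ n)
  have hnpos : (0 : ℝ) < n := by linarith
  have h3 : (1 : ℝ) ≤ (n : ℝ) ^ (1 / 2 - δ) := Real.one_le_rpow hn1 (by linarith)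
  have h4 : (1 : ℝ) ≤ (n : ℝ) ^ (1 / 2 + δ / 2) := Real.one_le_rpow hn1 (by linarith)
  have h5 : (n : ℝ) ^ (1 / 2 - δ) * (n : ℝ) ^ (1 / 2 + δ / 2) * (n : ℝ) ^ (δ / 2) = n := by
    rw [← Real.rpow_add hnpos, ← Real.rpow_add hnpos]
    have : 1 / 2 - δ + (1 / 2 + δ / 2) + δ / 2 = 1 := by ring
    rw [this, Real.rpow_one]
  have h6 : (0 : ℝ) < (n : ℝ) ^ (1 / 2 - δ) * (n : ℝ) ^ (1 / 2 + δ / 2) := by positivity
  calc ((n : ℝ) ^ (1 / 2 - δ) + 3) * ((n : ℝ) ^ (1 / 2 + δ / 2) + 3)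
      ≤ (4 * (n : ℝ) ^ (1 / 2 - δ)) * (4 * (n : ℝ) ^ (1 / 2 + δ / 2)) := by
        apply mul_le_mul <;> nlinarith
    _ = 16 * ((n : ℝ) ^ (1 / 2 - δ) * (n : ℝ) ^ (1 / 2 + δ / 2)) := by ring
    _ < (n : ℝ) ^ (δ / 2) * ((n : ℝ) ^ (1 / 2 - δ) * (n : ℝ) ^ (1 / 2 + δ / 2)) :=
        mul_lt_mul_of_pos_right h2 h6
    _ = n := by rw [mul_comm]; exact h5

/-- smallest exponent -/
theorem ASY_clog (s : ℕ) (u : ℝ) (hu : 0 ≤ u) (hs : (s : ℝ) ≤ 2 ^ u) :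
    ∃ a : ℕ, s ≤ 2 ^ a ∧ (a : ℝ) ≤ u + 1 := by
  refine ⟨⌈u⌉₊, ?_, ?_⟩
  · have h1 : (s : ℝ) ≤ 2 ^ ((⌈u⌉₊ : ℕ) : ℝ) :=
      le_trans hs (Real.rpow_le_rpow_of_exponent_le (by norm_num) (Nat.le_ceil u))
    rw [Real.rpow_natCast] at h1
    exact_mod_cast h1
  · exact (Nat.ceil_lt_add_one hu).le

theorem asymp (δ : ℝ) (hδ : 0 < δ) (hδ2 : δ < 1 / 2) :
    ∃ n0 : ℕ, ∀ n ≥ n0, ∀ D : Circuit n, (∀ x, Circuit.val D x ↔ par x) →
      ((#D : ℝ) ≤ 2 ^ ((n : ℝ) ^ (1 / 2 - δ)) ∨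
        ∀ F ∈ D, (#F : ℝ) ≤ 2 ^ ((n : ℝ) ^ (1 / 2 - δ))) →
      (2 : ℝ) ^ ((n : ℝ) ^ (1 / 2 + δ / 2)) ≤ D.size := by
  obtain ⟨n0, hn0, hreal⟩ := ASY_real δ hδ hδ2
  refine ⟨n0, fun n hn D hD hcase => ?_⟩
  have hn1 : 1 ≤ n := le_trans hn0 hn
  have hr := hreal n hn
  obtain ⟨u, hu⟩ : ∃ u : ℝ, u = (n : ℝ) ^ (1 / 2 - δ) := ⟨_, rfl⟩
  obtain ⟨t, ht⟩ : ∃ t : ℝ, t = (n : ℝ) ^ (1 / 2 + δ / 2) := ⟨_, rfl⟩
  have hu0 : 0 ≤ u := by rw [hu]; exact Real.rpow_nonneg (Nat.cast_nonneg n) _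
  have ht0 : 0 ≤ t := by rw [ht]; exact Real.rpow_nonneg (Nat.cast_nonneg n) _
  rw [← hu, ← ht] at hr
  rw [← hu] at hcase
  rw [← ht]
  by_contra hcon
  push Not at hcon
  have hsize : D.size = 1 + #D + #(D.biUnion id) := rfl
  have hFle : ∀ F ∈ D, #F ≤ #(D.biUnion id) := fun F hF =>
    Finset.card_le_card (Finset.subset_biUnion_of_mem id hF)
  have hD1 : (#D : ℝ) ≤ 2 ^ t := by
    refine le_trans ?_ hcon.le
    rw [hsize]
    push_cast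
    have : (0 : ℝ) ≤ (#(D.biUnion id) : ℝ) := Nat.cast_nonneg _
    linarith
  have hB1 : (#(D.biUnion id) : ℝ) ≤ 2 ^ t := by
    refine le_trans ?_ hcon.le
    rw [hsize]
    push_cast
    have : (0 : ℝ) ≤ (#D : ℝ) := Nat.cast_nonneg _
    linarith
  have hfin : ∀ a b : ℕ, n ≤ (a + 2) * (b + 2) →
      ((a : ℝ) ≤ u + 1 ∧ (b : ℝ) ≤ t + 1 ∨ (a : ℝ) ≤ t + 1 ∧ (b : ℝ) ≤ u + 1) → False := by
    intro a b h2 hor
    have h3 : (n : ℝ) ≤ ((a : ℝ) + 2) * ((b : ℝ) + 2) := by exact_mod_cast h2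
    have ha0 : (0 : ℝ) ≤ a := Nat.cast_nonneg a
    have hb0 : (0 : ℝ) ≤ b := Nat.cast_nonneg b
    rcases hor with ⟨h4, h5⟩ | ⟨h4, h5⟩
    · have h6 : ((a : ℝ) + 2) * ((b : ℝ) + 2) ≤ (u + 3) * (t + 3) := by
        apply mul_le_mul <;> linarith
      linarith
    · have h6 : ((a : ℝ) + 2) * ((b : ℝ) + 2) ≤ (t + 3) * (u + 3) := by
        apply mul_le_mul <;> linarith
      linarith
  rcases hcase with h1 | h1
  · obtain ⟨a, ha1, ha2⟩ := ASY_clog _ _ hu0 h1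
    obtain ⟨b, hb1, hb2⟩ := ASY_clog _ t ht0 hB1
    exact hfin a b (tradeoff hn1 a b D hD ha1 (fun F hF => le_trans (hFle F hF) hb1))
      (Or.inl ⟨ha2, hb2⟩)
  · obtain ⟨a, ha1, ha2⟩ := ASY_clog _ t ht0 hD1
    refine hfin a ⌈u⌉₊ (tradeoff hn1 a _ D hD ha1 (fun F hF => ?_))
      (Or.inr ⟨ha2, (Nat.ceil_lt_add_one hu0).le⟩)
    have h2 : (#F : ℝ) ≤ 2 ^ ((⌈u⌉₊ : ℕ) : ℝ) :=
      le_trans (h1 F hF) (Real.rpow_le_rpow_of_exponent_le (by norm_num) (Nat.le_ceil u))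
    rw [Real.rpow_natCast] at h2
    exact_mod_cast h2

end P336
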