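import Mathlib

/-!
# P336: unbalanced depth-three circuits (helper23)

THEOREM.  Let `k ≥ 2` and let an OR of CNFs, each CNF with at most `2^(k-2)` clauses of more than
`k` literals, accept only isolated points (no two accepted inputs differ in one coordinate).
Each CNF accepts at most `2 * 2^(n - n/k)` inputs.  Hence parity needs at least `2^(n/k - 2)`
middle gates; for every circuit for parity `(log₂ top fan-in + 2) (log₂ middle fan-in + 2) ≥ n`.

Proof: Paturi-Pudlak-Zane bound (martingale form, no permutations) + width reduction.
-/

namespace P336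

open Finset

variable {n : ℕ}

/-- a literal: variable `l.1`, true at `x` iff `x l.1 = l.2` -/
abbrev Lit (n : ℕ) := Fin n × Bool

/-- an OR gate reading literals -/
abbrev Clause (n : ℕ) := Finset (Lit n)

/-- an AND of OR gates -/
abbrev CNF (n : ℕ) := Finset (Clause n)

/-- a depth-three OR-AND-OR circuit: an OR of CNFs -/
abbrev Circuit (n : ℕ) := Finset (CNF n)

/-- value of an OR gate -/
def Clause.val (C : Clause n) (x : Fin n → Bool) : Prop := ∃ l ∈ C, x l.1 = l.2

/-- value of an AND gate -/
def CNF.val (F : CNF n) (x : Fin n → Bool) : Prop := ∀ C ∈ F, Clause.val C x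

/-- value of the circuit -/
def Circuit.val (D : Circuit n) (x : Fin n → Bool) : Prop := ∃ F ∈ D, CNF.val F x

/-- number of gates: the top gate, the middle gates, the distinct bottom gates -/
def Circuit.size (D : Circuit n) : ℕ := 1 + #D + #(D.biUnion id)

/-- change one coordinate -/
def flip (x : Fin n → Bool) (i : Fin n) : Fin n → Bool := Function.update x i (!x i)

/-- number of literals of `C` whose variable lies in `V` -/
def lw (V : Finset (Fin n)) (C : Clause n) : ℕ := #{l ∈ C | l.1 ∈ V}

/-- `A` is a set of points which agree off `V`, satisfy `F`, and flipping a coordinate in `V`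
falsifies `F` -/
structure Iso (V : Finset (Fin n)) (F : CNF n) (A : Finset (Fin n → Bool)) : Prop where
  agree : ∀ x ∈ A, ∀ y ∈ A, ∀ i, i ∉ V → x i = y i
  sat : ∀ x ∈ A, CNF.val F x
  isolated : ∀ x ∈ A, ∀ i ∈ V, ¬ CNF.val F (flip x i)

end P336
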