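import Vale.Agent.P336.Ppz

/-!
# P336 module NAR: CNFs of live width at most `k`

For `x ∈ A`, `i ∈ V` flipping `i` falsifies `F` (`Iso.isolated`): there is a clause `C ∈ F` with
`¬ C.val (flip x i)` and `C.val x`; so `C` contains the literal `(i, x i)` and all literals
`l ∈ C` with `l.1 ≠ i` are false at `x` (and `(i, !x i) ∉ C` since it would be true at
`flip x i`).  Choose one such `C` for every `x`, `i` and put `S x i = C.image Prod.fst`.  Then
`i ∈ S x i`, `#(S x i ∩ V) ≤ lw V C ≤ k`, and `hP` of `ppz_main` holds: if `y ∈ A` agrees with `x`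
on `S x i` except at `i`, then no literal `l ∈ C` with `l.1 ≠ i` is true at `y`, and `y` satisfies
`C`, so some literal `(i, b) ∈ C` is true at `y`, and `b = x i`.
So every exponent in `ppz_main` is `≥ #V / k`: `#A * 2^(#V/k) ≤ 2^#V`.
-/

namespace P336

open Finset

variable {n : ℕ}

private theorem NAR_flip_ne (x : Fin n → Bool) (i j : Fin n) (h : j ≠ i) : flip x i j = x j := by
  unfold flip
  rw [Function.update_of_ne h]

private theorem NAR_flip_self (x : Fin n → Bool) (i : Fin n) : flip x i i = !x i := by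
  unfold flip
  rw [Function.update_self]

theorem narrow (k : ℕ) (hk : 1 ≤ k) (V : Finset (Fin n)) (F : CNF n) (A : Finset (Fin n → Bool))
    (h : Iso V F A) (hw : ∀ C ∈ F, lw V C ≤ k) :
    (#A : ℝ) ≤ (2 : ℝ) ^ ((#V : ℝ) * (1 - 1 / (k : ℝ))) := by
  classical
  have hC : ∀ (x : Fin n → Bool) (i : Fin n), ∃ C : Clause n,
      x ∈ A → i ∈ V → C ∈ F ∧ ¬ Clause.val C (flip x i) := by
    intro x i
    by_cases hx : x ∈ A ∧ i ∈ V
    · have h1 := h.isolated x hx.1 i hx.2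
      unfold CNF.val at h1
      push Not at h1
      obtain ⟨C, hCF, hCv⟩ := h1
      exact ⟨C, fun _ _ => ⟨hCF, hCv⟩⟩
    · exact ⟨∅, fun h1 h2 => absurd ⟨h1, h2⟩ hx⟩
  choose C hC using hC
  have hS : ∀ x ∈ A, ∀ i ∈ V, i ∈ (C x i).image Prod.fst := by
    intro x hx i hi
    obtain ⟨hCF, hCv⟩ := hC x i hx hi
    obtain ⟨l, hl, hlx⟩ := h.sat x hx _ hCF
    by_cases hli : l.1 = i
    · exact Finset.mem_image.2 ⟨l, hl, hli⟩
    · exact absurd ⟨l, hl, (NAR_flip_ne x i l.1 hli).trans hlx⟩ hCv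
  have hP : ∀ x ∈ A, ∀ y ∈ A, ∀ i ∈ V,
      (∀ j ∈ (C x i).image Prod.fst, j ≠ i → y j = x j) → y i = x i := by
    intro x hx y hy i hi hag
    obtain ⟨hCF, hCv⟩ := hC x i hx hi
    obtain ⟨l, hl, hly⟩ := h.sat y hy _ hCF
    by_cases hli : l.1 = i
    · by_contra hne
      apply hCv
      refine ⟨l, hl, ?_⟩
      rw [hli, NAR_flip_self, ← hly, hli]
      cases hxi : x i <;> cases hyi : y i
      · rw [hxi, hyi] at hne
        exact absurd rfl hne
      · rfl
      · rfl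
      · rw [hxi, hyi] at hne
        exact absurd rfl hne
    · exfalso
      apply hCv
      refine ⟨l, hl, ?_⟩
      rw [NAR_flip_ne x i l.1 hli, ← hag l.1 (Finset.mem_image_of_mem _ hl) hli]
      exact hly
  have hmain := ppz_main #V V rfl A (fun x i => (C x i).image Prod.fst) h.agree hS hP
  have hk0 : (0 : ℝ) < k := by exact_mod_cast hk
  have hexp : ∀ x ∈ A, (#V : ℝ) / k ≤
      ∑ i ∈ V, 1 / (#((C x i).image Prod.fst ∩ V) : ℝ) := by
    intro x hx
    have h1 : ∀ i ∈ V, (1 : ℝ) / k ≤ 1 / (#((C x i).image Prod.fst ∩ V) : ℝ) := by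
      intro i hi
      have hpos : 0 < #((C x i).image Prod.fst ∩ V) :=
        Finset.card_pos.2 ⟨i, Finset.mem_inter.2 ⟨hS x hx i hi, hi⟩⟩
      have hle : #((C x i).image Prod.fst ∩ V) ≤ k := by
        refine le_trans ?_ (hw _ (hC x i hx hi).1)
        unfold lw
        refine le_trans (Finset.card_le_card ?_)
          (Finset.card_image_le (s := {l ∈ C x i | l.1 ∈ V}) (f := Prod.fst))
        intro j hj
        rw [Finset.mem_inter, Finset.mem_image] at hj
        obtain ⟨⟨l, hl, rfl⟩, hjV⟩ := hj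
        exact Finset.mem_image_of_mem _ (Finset.mem_filter.2 ⟨hl, hjV⟩)
      have hpos' : (0 : ℝ) < #((C x i).image Prod.fst ∩ V) := by exact_mod_cast hpos
      have hle' : (#((C x i).image Prod.fst ∩ V) : ℝ) ≤ k := by exact_mod_cast hle
      exact one_div_le_one_div_of_le hpos' hle'
    calc (#V : ℝ) / k = ∑ i ∈ V, (1 : ℝ) / k := by
          rw [Finset.sum_const, nsmul_eq_mul]
          ring
      _ ≤ _ := Finset.sum_le_sum h1
  have h2 : (#A : ℝ) * (2 : ℝ) ^ ((#V : ℝ) / k) ≤ 2 ^ #V := by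
    calc (#A : ℝ) * (2 : ℝ) ^ ((#V : ℝ) / k) = ∑ x ∈ A, (2 : ℝ) ^ ((#V : ℝ) / k) := by
          rw [Finset.sum_const, nsmul_eq_mul]
      _ ≤ _ := Finset.sum_le_sum fun x hx =>
          Real.rpow_le_rpow_of_exponent_le (by norm_num) (hexp x hx)
      _ ≤ 2 ^ #V := hmain
  have h3 : (2 : ℝ) ^ ((#V : ℝ) * (1 - 1 / (k : ℝ))) = 2 ^ #V / (2 : ℝ) ^ ((#V : ℝ) / k) := by
    have e : (#V : ℝ) * (1 - 1 / (k : ℝ)) = (#V : ℝ) - (#V : ℝ) / k := by ring
    rw [e, Real.rpow_sub (by norm_num : (0 : ℝ) < 2), Real.rpow_natCast]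
  rw [h3, le_div_iff₀ (Real.rpow_pos_of_pos (by norm_num) _)]
  exact h2

end P336
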