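import Vale.Agent.P336.Avg

/-!
# P336 modules STEP, PPZ: the Paturi-Pudlak-Zane inequality

`hP` says: if `y` agrees with `x` on `S x i` except perhaps at `i`, then `y i = x i`.

STEP (`ppz_step`): one coordinate `j ∈ V` is fixed first.  Put
`ψ x = ∑ i ∈ V.erase j, 1/#(S x i ∩ V.erase j)`, `e x = [S x j ∩ V = {j}]`.
`A_b = {x ∈ A | x j = b}` agree off `V.erase j`, so `IH` gives `∑ x ∈ A_b, 2^(ψ x) ≤ 2^(#V-1)`.
If `S x j ∩ V = {j}` for some `x ∈ A`, then by `hP` and `hag` every `y ∈ A` has `y j = x j`, so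
`A = A_b` and `∑ 2^(ψ + e) ≤ 2 ∑ 2^ψ ≤ 2 * 2^(#V-1)`.  Otherwise `e = 0` on `A` and
`∑_A = ∑_{A_true} + ∑_{A_false} ≤ 2 * 2^(#V-1)`.

PPZ (`ppz_main`): induction on `#V`.  `V = ∅`: `#A ≤ 1` (all points agree) and the exponent is `0`.
Otherwise for `x ∈ A`:
`∑ i ∈ V, 1/#(S x i ∩ V) = (1/#V) ∑ j ∈ V, (∑ i ∈ V.erase j, 1/#(S x i ∩ V.erase j) + e_j x)`
by `ppz_avg` and exchanging the sums, so by convexity of `t ↦ 2^t` (Jensen,
`ConvexOn.map_sum_le`, `convexOn_exp` with `2^t = exp (log 2 * t)`)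
`2^(∑ i ∈ V, ..) ≤ (1/#V) ∑ j ∈ V, 2^(ψ_j x + e_j x)`; sum over `x ∈ A`, exchange, and use STEP:
`≤ (1/#V) ∑ j ∈ V, 2^#V = 2^#V`.
-/

namespace P336

open Finset

variable {n : ℕ}

theorem ppz_step (V : Finset (Fin n)) (A : Finset (Fin n → Bool))
    (S : (Fin n → Bool) → Fin n → Finset (Fin n))
    (hag : ∀ x ∈ A, ∀ y ∈ A, ∀ i, i ∉ V → x i = y i)
    (hP : ∀ x ∈ A, ∀ y ∈ A, ∀ i ∈ V, (∀ j ∈ S x i, j ≠ i → y j = x j) → y i = x i)
    (j : Fin n) (hj : j ∈ V)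
    (IH : ∀ B ⊆ A, (∀ x ∈ B, ∀ y ∈ B, ∀ i, i ∉ V.erase j → x i = y i) →
      ∑ x ∈ B, (2 : ℝ) ^ (∑ i ∈ V.erase j, 1 / (#(S x i ∩ V.erase j) : ℝ)) ≤ 2 ^ (#V - 1)) :
    ∑ x ∈ A, (2 : ℝ) ^ (∑ i ∈ V.erase j, 1 / (#(S x i ∩ V.erase j) : ℝ) +
      if S x j ∩ V = {j} then 1 else 0) ≤ 2 ^ #V := by
  have hpow : (2 : ℝ) ^ #V = 2 * 2 ^ (#V - 1) := by
    rw [← pow_succ', Nat.sub_add_cancel (card_pos.2 ⟨j, hj⟩)]
  have hB : ∀ b : Bool, ∑ x ∈ A.filter (fun x => x j = b),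
      (2 : ℝ) ^ (∑ i ∈ V.erase j, 1 / (#(S x i ∩ V.erase j) : ℝ)) ≤ 2 ^ (#V - 1) := by
    intro b
    refine IH _ (filter_subset _ _) ?_
    intro x hx y hy i hi
    rw [mem_filter] at hx hy
    by_cases h : i = j
    · subst h
      rw [hx.2, hy.2]
    · exact hag x hx.1 y hy.1 i (fun hV => hi (mem_erase.2 ⟨h, hV⟩))
  by_cases hc : ∃ x ∈ A, S x j ∩ V = {j}
  · obtain ⟨x0, hx0, hS0⟩ := hc
    have hall : ∀ y ∈ A, y j = x0 j := by
      intro y hy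
      refine hP x0 hx0 y hy j hj ?_
      intro j' hj' hne
      refine (hag x0 hx0 y hy j' ?_).symm
      intro hjV
      have : j' ∈ S x0 j ∩ V := mem_inter.2 ⟨hj', hjV⟩
      rw [hS0, mem_singleton] at this
      exact hne this
    have hA : A.filter (fun x => x j = x0 j) = A := filter_true_of_mem hall
    have h1 := hB (x0 j)
    rw [hA] at h1
    rw [hpow]
    refine le_trans ?_ (mul_le_mul_of_nonneg_left h1 (by norm_num))
    rw [mul_sum]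
    refine sum_le_sum fun x _ => ?_
    rw [Real.rpow_add (by norm_num : (0 : ℝ) < 2), mul_comm]
    refine mul_le_mul_of_nonneg_right ?_ (by positivity)
    split_ifs
    · rw [Real.rpow_one]
    · rw [Real.rpow_zero]
      norm_num
  · push Not at hc
    have h2 : ∑ x ∈ A, (2 : ℝ) ^ (∑ i ∈ V.erase j, 1 / (#(S x i ∩ V.erase j) : ℝ) +
        if S x j ∩ V = {j} then 1 else 0) =
        ∑ x ∈ A, (2 : ℝ) ^ (∑ i ∈ V.erase j, 1 / (#(S x i ∩ V.erase j) : ℝ)) :=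
      sum_congr rfl fun x hx => by rw [if_neg (hc x hx), add_zero]
    rw [h2, ← sum_filter_add_sum_filter_not A (fun x => x j = true)]
    have h3 : A.filter (fun x => ¬ x j = true) = A.filter (fun x => x j = false) :=
      filter_congr fun x _ => by simp
    rw [h3, hpow, two_mul]
    exact add_le_add (hB true) (hB false)

/-- the exponent is an average over the coordinate which is fixed first -/
theorem PPZ_avg (V : Finset (Fin n)) (S : Fin n → Finset (Fin n)) (hS : ∀ i ∈ V, i ∈ S i) :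
    (#V : ℝ) * ∑ i ∈ V, 1 / (#(S i ∩ V) : ℝ) =
      ∑ j ∈ V, (∑ i ∈ V.erase j, 1 / (#(S i ∩ V.erase j) : ℝ) +
        if S j ∩ V = {j} then 1 else 0) := by
  have h1 : (#V : ℝ) * ∑ i ∈ V, 1 / (#(S i ∩ V) : ℝ) = ∑ i ∈ V, ∑ j ∈ V,
      (if j = i then (if S i ∩ V = {i} then (1 : ℝ) else 0) else
        1 / (#(S i ∩ V.erase j) : ℝ)) := by
    rw [mul_sum]
    refine sum_congr rfl fun i hi => ?_
    rw [ppz_avg V (S i) i hi (hS i hi)]
    ring
  rw [h1, sum_comm]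
  refine sum_congr rfl fun j hj => ?_
  rw [← sum_erase_add V _ hj, if_pos rfl]
  refine congrArg₂ (· + ·) (sum_congr rfl fun i hi => ?_) rfl
  rw [if_neg (ne_of_mem_erase hi).symm]

/-- Jensen's inequality -/
theorem PPZ_jensen (V : Finset (Fin n)) (hV : V.Nonempty) (t : Fin n → ℝ) (E : ℝ)
    (hE : (#V : ℝ) * E = ∑ j ∈ V, t j) :
    (2 : ℝ) ^ E ≤ (1 / (#V : ℝ)) * ∑ j ∈ V, (2 : ℝ) ^ t j := by
  have hN : (0 : ℝ) < #V := by exact_mod_cast card_pos.2 hV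
  have h := (convexOn_rpow_left (by norm_num : (0 : ℝ) < 2)).map_sum_le (t := V)
    (w := fun _ => 1 / (#V : ℝ)) (p := t) (fun _ _ => by positivity)
    (by rw [sum_const, nsmul_eq_mul]; field_simp) (fun _ _ => Set.mem_univ _)
  have e1 : ∑ i ∈ V, (fun _ => 1 / (#V : ℝ)) i • t i = E := by
    simp only [smul_eq_mul]
    rw [← mul_sum, ← hE]
    field_simp
  rw [e1] at h
  refine h.trans (le_of_eq ?_)
  rw [mul_sum]
  rfl

theorem ppz_main (v : ℕ) (V : Finset (Fin n)) (hV : #V = v) (A : Finset (Fin n → Bool))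
    (S : (Fin n → Bool) → Fin n → Finset (Fin n))
    (hag : ∀ x ∈ A, ∀ y ∈ A, ∀ i, i ∉ V → x i = y i)
    (hS : ∀ x ∈ A, ∀ i ∈ V, i ∈ S x i)
    (hP : ∀ x ∈ A, ∀ y ∈ A, ∀ i ∈ V, (∀ j ∈ S x i, j ≠ i → y j = x j) → y i = x i) :
    ∑ x ∈ A, (2 : ℝ) ^ (∑ i ∈ V, 1 / (#(S x i ∩ V) : ℝ)) ≤ 2 ^ v := by
  induction v generalizing V A with
  | zero =>
    rw [card_eq_zero] at hV
    subst hV
    have hc : #A ≤ 1 := by
      rw [card_le_one]
      intro x hx y hy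
      funext i
      exact hag x hx y hy i (notMem_empty i)
    have hc' : (#A : ℝ) ≤ 1 := by exact_mod_cast hc
    simpa using hc'
  | succ v ih =>
    have hne : V.Nonempty := card_pos.1 (by omega)
    have hN : (0 : ℝ) < #V := by exact_mod_cast card_pos.2 hne
    have h1 : ∀ j ∈ V, ∑ x ∈ A, (2 : ℝ) ^ (∑ i ∈ V.erase j, 1 / (#(S x i ∩ V.erase j) : ℝ) +
        if S x j ∩ V = {j} then 1 else 0) ≤ 2 ^ #V := by
      intro j hj
      refine ppz_step V A S hag hP j hj fun B hB hBag => ?_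
      have hcard : #(V.erase j) = v := by rw [card_erase_of_mem hj, hV]; rfl
      have e : #V - 1 = v := by omega
      rw [e]
      exact ih (V.erase j) hcard B hBag (fun x hx i hi => hS x (hB hx) i (mem_of_mem_erase hi))
        (fun x hx y hy i hi => hP x (hB hx) y (hB hy) i (mem_of_mem_erase hi))
    calc ∑ x ∈ A, (2 : ℝ) ^ (∑ i ∈ V, 1 / (#(S x i ∩ V) : ℝ)) ≤
        ∑ x ∈ A, (1 / (#V : ℝ)) * ∑ j ∈ V, (2 : ℝ) ^ (∑ i ∈ V.erase j,
          1 / (#(S x i ∩ V.erase j) : ℝ) + if S x j ∩ V = {j} then 1 else 0) :=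
          sum_le_sum fun x hx => PPZ_jensen V hne _ _ (PPZ_avg V (S x) (hS x hx))
      _ = (1 / (#V : ℝ)) * ∑ j ∈ V, ∑ x ∈ A, (2 : ℝ) ^ (∑ i ∈ V.erase j,
          1 / (#(S x i ∩ V.erase j) : ℝ) + if S x j ∩ V = {j} then 1 else 0) := by
          rw [← mul_sum, sum_comm]
      _ ≤ (1 / (#V : ℝ)) * ∑ j ∈ V, 2 ^ #V :=
          mul_le_mul_of_nonneg_left (sum_le_sum h1) (by positivity)
      _ = 2 ^ (v + 1) := by
          rw [sum_const, nsmul_eq_mul, hV]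
          field_simp

end P336
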