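import Vale.Agent.P336.Narrow
import Vale.Agent.P336.Branch

/-!
# P336 modules BR1, BR2, WID, CNT: width reduction

`q = 1 - 2^(-(k-1)) ∈ [1/2, 1)`.

WID (`wide`): outer induction on `m`, inner strong induction on `#V` (generalize everything).
If no clause has `lw V C > k`: `narrow` (and `q^m ≤ 1`).  This covers `m = 0`.
Otherwise take `C ∈ F` with `k < lw V C` and `L ⊆ {l ∈ C | l.1 ∈ V}` with `#L = k`
(`exists_subset_card_eq`).  `A1 = {x ∈ A | L.val x}`: by `branch1` it is `Iso V (insert L (F.erase C))`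
with at most `m - 1` wide clauses, so `#A1 * q^(m-1) ≤ 2^(#V (1-1/k))`.
`A2 = {x ∈ A | ¬ L.val x}`: if it is nonempty, by `branch2` it is `Iso V2 F` with
`V2 = V \ L.image Prod.fst`, `#V2 = #V - k`, and at most `m` wide clauses, so
`#A2 * q^m ≤ 2^((#V - k)(1-1/k)) = 2^(#V(1-1/k)) * 2^(-(k-1)) = 2^(#V (1-1/k)) (1 - q)`.  Add.

CNT (`count`): `wide` with `V = univ`, `m = 2^(k-2)`; Bernoulli (`one_add_mul_le_pow`):
`q^m ≥ 1 - m 2^(-(k-1)) = 1/2`.
-/

namespace P336

open Finset

variable {n : ℕ}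

open scoped Classical in
theorem branch1 (V : Finset (Fin n)) (F : CNF n) (A : Finset (Fin n → Bool)) (h : Iso V F A)
    (k m : ℕ) (C L : Clause n) (hC : C ∈ F) (hCk : k < lw V C) (hL : L ⊆ C) (hLk : #L ≤ k)
    (hm : #{C ∈ F | k < lw V C} ≤ m + 1) :
    Iso V (insert L (F.erase C)) {x ∈ A | Clause.val L x} ∧
      #{C ∈ insert L (F.erase C) | k < lw V C} ≤ m := by
  exact branch1' V F A h k m C L hC hCk hL hLk hm

open scoped Classical in
theorem branch2 (V : Finset (Fin n)) (F : CNF n) (A : Finset (Fin n → Bool)) (h : Iso V F A)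
    (k m : ℕ) (L : Clause n) (hLV : ∀ l ∈ L, l.1 ∈ V) (hLk : #L = k)
    (hm : #{C ∈ F | k < lw V C} ≤ m) (hne : ({x ∈ A | ¬ Clause.val L x} : Finset _).Nonempty) :
    Iso (V \ L.image Prod.fst) F {x ∈ A | ¬ Clause.val L x} ∧
      #(V \ L.image Prod.fst) + k = #V ∧
      #{C ∈ F | k < lw (V \ L.image Prod.fst) C} ≤ m := by
  exact branch2' V F A h k m L hLV hLk hm hne

theorem wide (k : ℕ) (hk : 2 ≤ k) (m : ℕ) (V : Finset (Fin n)) (F : CNF n)
    (A : Finset (Fin n → Bool)) (h : Iso V F A) (hm : #{C ∈ F | k < lw V C} ≤ m) :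
    (#A : ℝ) * (1 - 1 / 2 ^ (k - 1)) ^ m ≤ (2 : ℝ) ^ ((#V : ℝ) * (1 - 1 / (k : ℝ))) := by
  classical
  obtain ⟨q, hq⟩ : ∃ q : ℝ, q = 1 - 1 / 2 ^ (k - 1) := ⟨_, rfl⟩
  have hp1 : (1 : ℝ) ≤ 2 ^ (k - 1) := one_le_pow₀ (by norm_num)
  have hp2 : (1 : ℝ) / 2 ^ (k - 1) ≤ 1 := by
    rw [div_le_one (by positivity)]
    exact hp1
  have hp3 : (0 : ℝ) < 1 / 2 ^ (k - 1) := by positivity
  have hq0 : 0 ≤ q := by rw [hq]; linarith
  have hq1 : q ≤ 1 := by rw [hq]; linarith
  rw [← hq]
  induction m generalizing V F A with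
  | zero =>
    rw [pow_zero, mul_one]
    refine narrow k (by omega) V F A h fun C hC => ?_
    by_contra hcon
    have : C ∈ ({C ∈ F | k < lw V C} : Finset _) := mem_filter.2 ⟨hC, not_le.1 hcon⟩
    have h2 := card_pos.2 ⟨C, this⟩
    omega
  | succ m ihm =>
    obtain ⟨v, hv⟩ : ∃ v : ℕ, v = #V := ⟨_, rfl⟩
    induction v using Nat.strong_induction_on generalizing V F A with
    | _ v ihv =>
      by_cases hw : ∀ C ∈ F, lw V C ≤ k
      · have h1 := narrow k (by omega) V F A h hw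
        have h2 : q ^ (m + 1) ≤ 1 := pow_le_one₀ hq0 hq1
        have h3 : (0 : ℝ) ≤ #A := Nat.cast_nonneg _
        calc (#A : ℝ) * q ^ (m + 1) ≤ #A * 1 := mul_le_mul_of_nonneg_left h2 h3
          _ = #A := mul_one _
          _ ≤ _ := h1
      · push Not at hw
        obtain ⟨C, hC, hCk⟩ := hw
        have hCk' : k ≤ #(C.filter fun l => l.1 ∈ V) := hCk.le
        obtain ⟨L, hL, hLk⟩ := exists_subset_card_eq hCk'
        have hLC : L ⊆ C := fun l hl => (mem_filter.1 (hL hl)).1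
        have hLV : ∀ l ∈ L, l.1 ∈ V := fun l hl => (mem_filter.1 (hL hl)).2
        have b1 := branch1 V F A h k m C L hC hCk hLC hLk.le hm
        have i1 := ihm V _ _ b1.1 b1.2
        obtain ⟨X, hX⟩ : ∃ X : ℝ, X = (2 : ℝ) ^ ((#V : ℝ) * (1 - 1 / (k : ℝ))) := ⟨_, rfl⟩
        rw [← hX] at i1 ⊢
        have hX0 : 0 < X := by rw [hX]; positivity
        have i2 : (#({x ∈ A | ¬ Clause.val L x} : Finset _) : ℝ) * q ^ (m + 1) ≤ (1 - q) * X := by
          rcases Finset.eq_empty_or_nonempty ({x ∈ A | ¬ Clause.val L x} : Finset _) with he | hne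
          · rw [he, card_empty, Nat.cast_zero, zero_mul]
            exact mul_nonneg (by linarith) hX0.le
          · obtain ⟨c1, c2, c3⟩ := branch2 V F A h k (m + 1) L hLV hLk hm hne
            have i3 := ihv _ (by omega) _ F _ c1 c3 rfl
            refine i3.trans (le_of_eq ?_)
            have hk0 : (k : ℝ) ≠ 0 := by
              have : 0 < k := by omega
              exact_mod_cast this.ne'
            have e1 : (#(V \ L.image Prod.fst) : ℝ) = #V - k := by
              rw [← c2]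
              push_cast
              ring
            have e2 : ((#V : ℝ) - k) * (1 - 1 / (k : ℝ)) =
                (#V : ℝ) * (1 - 1 / (k : ℝ)) - ((k - 1 : ℕ) : ℝ) := by
              rw [Nat.cast_sub (by omega : 1 ≤ k)]
              field_simp
              push_cast
              ring
            rw [e1, e2, Real.rpow_sub (by norm_num), ← hX, Real.rpow_natCast, hq]
            ring
        have e : (#A : ℝ) = #({x ∈ A | Clause.val L x} : Finset _) +
            #({x ∈ A | ¬ Clause.val L x} : Finset _) := by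
          rw [← Nat.cast_add, card_filter_add_card_filter_not]
        rw [e, add_mul]
        have i4 : (#({x ∈ A | Clause.val L x} : Finset _) : ℝ) * q ^ (m + 1) ≤ q * X := by
          calc (#({x ∈ A | Clause.val L x} : Finset _) : ℝ) * q ^ (m + 1)
              = q * (#({x ∈ A | Clause.val L x} : Finset _) * q ^ m) := by rw [pow_succ]; ring
            _ ≤ q * X := mul_le_mul_of_nonneg_left i1 hq0
        calc _ ≤ q * X + (1 - q) * X := add_le_add i4 i2
          _ = X := by ring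

/-- a CNF with at most `2^(k-2)` clauses of more than `k` literals, all of whose satisfying
assignments in `A` are isolated -/
theorem count (k : ℕ) (hk : 2 ≤ k) (F : CNF n) (A : Finset (Fin n → Bool))
    (hA : ∀ x ∈ A, CNF.val F x) (hiso : ∀ x ∈ A, ∀ i, ¬ CNF.val F (flip x i))
    (hm : #{C ∈ F | k < #C} ≤ 2 ^ (k - 2)) :
    (#A : ℝ) ≤ 2 * (2 : ℝ) ^ ((n : ℝ) * (1 - 1 / (k : ℝ))) := by
  have hlw : ∀ C : Clause n, lw univ C = #C := by
    intro C
    unfold lw
    congr 1
    exact filter_true_of_mem fun l _ => mem_univ _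
  have hI : Iso univ F A := ⟨fun x _ y _ i hi => absurd (mem_univ i) hi, hA,
    fun x hx i _ => hiso x hx i⟩
  have h1 := wide k hk (2 ^ (k - 2)) univ F A hI (by simpa only [hlw] using hm)
  rw [card_univ, Fintype.card_fin] at h1
  have hp : (2 : ℝ) ^ (k - 1) = 2 * 2 ^ (k - 2) := by
    rw [← pow_succ']
    congr 1
    omega
  have hb : (1 : ℝ) / 2 ≤ (1 - 1 / 2 ^ (k - 1)) ^ (2 ^ (k - 2)) := by
    have h2 : (-2 : ℝ) ≤ -(1 / 2 ^ (k - 1)) := by
      have : (1 : ℝ) / 2 ^ (k - 1) ≤ 1 := by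
        rw [div_le_one (by positivity)]
        exact one_le_pow₀ (by norm_num)
      linarith
    have h3 := one_add_mul_le_pow h2 (2 ^ (k - 2))
    have h4 : (1 : ℝ) + ((2 ^ (k - 2) : ℕ) : ℝ) * (-(1 / 2 ^ (k - 1))) = 1 / 2 := by
      rw [hp]
      push_cast
      have : (2 : ℝ) ^ (k - 2) ≠ 0 := by positivity
      field_simp
      ring
    rw [h4] at h3
    rw [sub_eq_add_neg]
    exact h3
  have h5 : (#A : ℝ) * (1 / 2) ≤ (#A : ℝ) * (1 - 1 / 2 ^ (k - 1)) ^ (2 ^ (k - 2)) :=
    mul_le_mul_of_nonneg_left hb (Nat.cast_nonneg _)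
  linarith

end P336
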